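import Mathlib

/-! P265: symplectic forms, Hamiltonian flows, the stable Morse number. -/

open scoped Manifold ContDiff
open Set

noncomputable section

namespace Vale.Agent.P265

variable (E : Type) [NormedAddCommGroup E] [NormedSpace ℝ E]
  {M : Type} [TopologicalSpace M] [ChartedSpace E M]

/-- The derivative of a map `f : M → M` at `x`, as a map of tangent spaces (each one is `E`). -/
def tder (f : M → M) (x : M) : E →L[ℝ] E := mfderiv 𝓘(ℝ, E) 𝓘(ℝ, E) f x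

/-- The differential of a function `g : M → ℝ` at `x`. -/
def fder (g : M → ℝ) (x : M) : E →L[ℝ] ℝ := mfderiv 𝓘(ℝ, E) 𝓘(ℝ, ℝ) g x

/-- The velocity at time `t` of a curve in `M`. -/
def vel (c : ℝ → M) (t : ℝ) : E := mfderiv 𝓘(ℝ, ℝ) 𝓘(ℝ, E) c t (1 : ℝ)

/-- The derivative at `y` of the inverse of the chart at `x₀`. -/
def chartDer (x₀ : M) (y : E) : E →L[ℝ] E := mfderiv 𝓘(ℝ, E) 𝓘(ℝ, E) (chartAt E x₀).symm y

/-- The expression in the chart at `x₀` of a field `w` of bilinear forms on the tangent spaces. -/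
def formInChart (w : M → E →L[ℝ] E →L[ℝ] ℝ) (x₀ : M) (y : E) : E →L[ℝ] E →L[ℝ] ℝ :=
  (w ((chartAt E x₀).symm y)).bilinearComp (chartDer E x₀ y) (chartDer E x₀ y)

/-- The derivative at `y` in the direction `a` of a field of bilinear forms, evaluated on `b, c`. -/
def dirDer (B : E → E →L[ℝ] E →L[ℝ] ℝ) (y a b c : E) : ℝ := fderiv ℝ B y a b c

/-- A symplectic form: alternating, nondegenerate, smooth and closed. -/
def IsSymplectic (w : M → E →L[ℝ] E →L[ℝ] ℝ) : Prop :=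
  (∀ x u, w x u u = 0) ∧ (∀ x u, (∀ v, w x u v = 0) → u = 0) ∧
    ∀ x₀ : M, ContDiffOn ℝ ∞ (formInChart E w x₀) (chartAt E x₀).target ∧
      ∀ y ∈ (chartAt E x₀).target, ∀ a b c : E,
        dirDer E (formInChart E w x₀) y a b c + dirDer E (formInChart E w x₀) y b c a +
          dirDer E (formInChart E w x₀) y c a b = 0

/-- `φ t`, `0 ≤ t ≤ 1`, is the Hamiltonian flow of `H`: `φ 0 = id` and the velocity `X` of
`t ↦ φ t x` satisfies `w (X, ·) = d H_t`. -/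
def IsHamFlow (w : M → E →L[ℝ] E →L[ℝ] ℝ) (H : ℝ → M → ℝ) (φ : ℝ → M → M) : Prop :=
  (∀ x, φ 0 x = x) ∧ ∀ x, ∀ t ∈ Icc (0 : ℝ) 1,
    MDifferentiableAt 𝓘(ℝ, ℝ) 𝓘(ℝ, E) (fun s => φ s x) t ∧
      ∀ v, w (φ t x) (vel E (fun s => φ s x) t) v = fder E (H t) (φ t x) v

/-- `1` is not an eigenvalue of the derivative of `f` at `x`. -/
def NondegAt (f : M → M) (x : M) : Prop :=
  MDifferentiableAt 𝓘(ℝ, E) 𝓘(ℝ, E) f x ∧ ∀ v, tder E f x v = v → v = 0

/-- Fixed points of `φ 1` whose loop `t ↦ φ t x` is freely homotopic to a constant loop. -/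
def fixContr (φ : ℝ → M → M) : Set M :=
  {x | φ 1 x = x ∧ ∃ (h : C(unitInterval × unitInterval, M)) (c : M),
    (∀ t, h (0, t) = φ t x) ∧ (∀ t, h (1, t) = c) ∧ ∀ s, h (s, 0) = h (s, 1)}

/-- The differential of a function on `M × ℝ^k`. -/
def pder {k : ℕ} (F : M × EuclideanSpace ℝ (Fin k) → ℝ) (p : M × EuclideanSpace ℝ (Fin k)) :
    E × EuclideanSpace ℝ (Fin k) →L[ℝ] ℝ :=
  mfderiv (𝓘(ℝ, E).prod 𝓘(ℝ, EuclideanSpace ℝ (Fin k))) 𝓘(ℝ, ℝ) F p

/-- Critical points of a function on `M × ℝ^k`. -/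
def critSet {k : ℕ} (F : M × EuclideanSpace ℝ (Fin k) → ℝ) : Set (M × EuclideanSpace ℝ (Fin k)) :=
  {p | pder E F p = 0}

/-- The second derivative of a real function on a normed space. -/
def hess (g : E → ℝ) (y u v : E) : ℝ := fderiv ℝ (fderiv ℝ g) y u v

/-- The expression of a function on `M × ℝ^k` in the chart at `x₀`. -/
def funInChart {k : ℕ} (F : M × EuclideanSpace ℝ (Fin k) → ℝ) (x₀ : M)
    (q : E × EuclideanSpace ℝ (Fin k)) : ℝ :=
  F ((chartAt E x₀).symm q.1, q.2)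

/-- Smooth, with nondegenerate Hessian at each critical point. -/
def IsMorse {k : ℕ} (F : M × EuclideanSpace ℝ (Fin k) → ℝ) : Prop :=
  ContMDiff (𝓘(ℝ, E).prod 𝓘(ℝ, EuclideanSpace ℝ (Fin k))) 𝓘(ℝ, ℝ) ∞ F ∧
    ∀ p ∈ critSet E F, ∀ u,
      (∀ v, hess (E × EuclideanSpace ℝ (Fin k)) (funInChart E F p.1) (chartAt E p.1 p.1, p.2) u v = 0) →
        u = 0

/-- Equal to a nondegenerate quadratic form of the second variable outside a ball. -/
def QuadAtInfinity {k : ℕ} (F : M × EuclideanSpace ℝ (Fin k) → ℝ) : Prop :=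
  ∃ (Q : QuadraticForm ℝ (EuclideanSpace ℝ (Fin k))) (R : ℝ),
    (∀ u, (∀ v, QuadraticMap.polar Q u v = 0) → u = 0) ∧ 0 < R ∧
      ∀ x z, R ≤ ‖z‖ → F (x, z) = Q z

variable (M) in
/-- The stable Morse number. -/
def stableMorse : ℕ∞ :=
  ⨅ (k : ℕ) (F : M × EuclideanSpace ℝ (Fin k) → ℝ) (_ : IsMorse E F ∧ QuadAtInfinity F),
    (critSet E F).encard

end Vale.Agent.P265
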